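import Vale.Agent.P004N.H169.EllA

/-!
# P004N.H169: absolute convergence for `Re s > 3/2` after putting Euler factors back
-/

open Real Filter Topology

namespace P004N.H169

open P004N P004N.T8

/-- putting the powers of one prime back -/
lemma summable_add_prime {g : ℕ → ℝ} (h0 : ∀ n, 0 ≤ g n) (hz : g 0 = 0) {p : ℕ} (hp : p.Prime)
    (hmul : ∀ k m : ℕ, ¬ p ∣ m → g (p ^ k * m) = g (p ^ k) * g m)
    (h1 : Summable fun k : ℕ => g (p ^ k))
    (h2 : Summable fun n : ℕ => if p ∣ n then 0 else g n) : Summable g := by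
  have h3 : Summable fun m : {m : ℕ // ¬ p ∣ m} => g m := by
    have h4 := h2.comp_injective (i := fun m : {m : ℕ // ¬ p ∣ m} => (m : ℕ))
      Subtype.val_injective
    refine h4.congr fun m => ?_
    simp only [Function.comp]
    rw [if_neg m.2]
  have h5 : Summable fun x : ℕ × {m : ℕ // ¬ p ∣ m} => g (p ^ x.1) * g x.2 :=
    h1.mul_of_nonneg h3 (fun k => h0 _) (fun m => h0 _)
  set φ : ℕ × {m : ℕ // ¬ p ∣ m} → ℕ := fun x => p ^ x.1 * (x.2 : ℕ) with hφ
  have hinj : Function.Injective φ := by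
    rintro ⟨k, m, hm⟩ ⟨k', m', hm'⟩ h
    simp only [hφ] at h
    have hk : k = k' := by
      have e1 : (p ^ k * m).factorization p = k := by
        have hm0 : m ≠ 0 := by rintro rfl; exact hm (dvd_zero p)
        rw [Nat.factorization_mul (pow_ne_zero k hp.ne_zero) hm0, Finsupp.add_apply,
          Nat.factorization_pow, Finsupp.smul_apply, hp.factorization_self,
          Nat.factorization_eq_zero_of_not_dvd hm]
        simp
      have e2 : (p ^ k' * m').factorization p = k' := by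
        have hm0 : m' ≠ 0 := by rintro rfl; exact hm' (dvd_zero p)
        rw [Nat.factorization_mul (pow_ne_zero k' hp.ne_zero) hm0, Finsupp.add_apply,
          Nat.factorization_pow, Finsupp.smul_apply, hp.factorization_self,
          Nat.factorization_eq_zero_of_not_dvd hm']
        simp
      rw [← e1, ← e2, h]
    subst hk
    have hm2 : m = m' := Nat.eq_of_mul_eq_mul_left (pow_pos hp.pos k) h
    subst hm2
    rfl
  rw [← hinj.summable_iff]
  · refine h5.congr fun x => ?_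
    simp only [Function.comp, hφ]
    rw [hmul _ _ x.2.2]
  · intro n hn
    rcases eq_or_ne n 0 with rfl | hn0
    · exact hz
    · exfalso
      apply hn
      obtain ⟨k, m, hm, he⟩ := Nat.exists_eq_pow_mul_and_not_dvd hn0 p hp.ne_one
      exact ⟨(k, ⟨m, hm⟩), he.symm⟩

/-- the terms -/
noncomputable def tm (A : ℕ → ℝ) (σ : ℝ) (n : ℕ) : ℝ := |A n| * (n : ℝ) ^ (-σ)

lemma tm_nonneg (A : ℕ → ℝ) (σ : ℝ) (n : ℕ) : 0 ≤ tm A σ n := by
  unfold tm; positivity

lemma summable_local {A : ℕ → ℝ} (h : LDr A) {p : ℕ} (hp : p.Prime) {σ : ℝ} (hσ : 1 < σ) :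
    Summable fun k : ℕ => tm A σ (p ^ k) := by
  have hp1 : (1 : ℝ) < p := by exact_mod_cast hp.one_lt
  have hr0 : 0 ≤ (p : ℝ) ^ (1 - σ) := by positivity
  have hr1 : (p : ℝ) ^ (1 - σ) < 1 := Real.rpow_lt_one_of_one_lt_of_neg hp1 (by linarith)
  have hs : Summable fun k : ℕ => ((k : ℝ) ^ 1 * ((p : ℝ) ^ (1 - σ)) ^ k +
      ((p : ℝ) ^ (1 - σ)) ^ k) := by
    refine Summable.add ?_ (summable_geometric_of_lt_one hr0 hr1)
    exact summable_pow_mul_geometric_of_norm_lt_one 1 (by
      rw [Real.norm_of_nonneg hr0]; exact hr1)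
  refine Summable.of_nonneg_of_le (fun k => tm_nonneg _ _ _) (fun k => ?_) hs
  have h1 := H503.Sum.ldr_bound h (p ^ k)
  rw [Nat.divisors_prime_pow hp, Finset.card_map, Finset.card_range] at h1
  unfold tm
  have h2 : ((p ^ k : ℕ) : ℝ) * ((p ^ k : ℕ) : ℝ) ^ (-σ) = ((p : ℝ) ^ (1 - σ)) ^ k := by
    push_cast
    have hpp : (0 : ℝ) < (p : ℝ) ^ k := by positivity
    have e1 : (p : ℝ) ^ k * ((p : ℝ) ^ k) ^ (-σ) = ((p : ℝ) ^ k) ^ (1 - σ) := by
      rw [Real.rpow_sub hpp, Real.rpow_one, Real.rpow_neg hpp.le]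
      rfl
    rw [e1, ← Real.rpow_natCast, ← Real.rpow_natCast, ← Real.rpow_mul (by linarith),
      ← Real.rpow_mul (by linarith)]
    congr 1
    ring
  have h3 : (0 : ℝ) ≤ ((p ^ k : ℕ) : ℝ) ^ (-σ) := by positivity
  calc |A (p ^ k)| * ((p ^ k : ℕ) : ℝ) ^ (-σ)
      ≤ (((k + 1 : ℕ) : ℝ) * ((p ^ k : ℕ) : ℝ)) * ((p ^ k : ℕ) : ℝ) ^ (-σ) :=
        mul_le_mul_of_nonneg_right h1 h3
    _ = ((k + 1 : ℕ) : ℝ) * ((p : ℝ) ^ (1 - σ)) ^ k := by rw [mul_assoc, h2]
    _ = (k : ℝ) ^ 1 * ((p : ℝ) ^ (1 - σ)) ^ k + ((p : ℝ) ^ (1 - σ)) ^ k := by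
        push_cast; ring

/-- **absolute convergence after putting finitely many Euler factors back** -/
theorem summable_of_inc {A : ℕ → ℝ} (h : LDr A) {B : ℕ} (hB : B ≠ 0) {σ : ℝ} (hσ : 1 < σ)
    (hsum : Summable (tm (inc B A) σ)) : Summable (tm A σ) := by
  classical
  have key : ∀ S : Finset ℕ, (∀ p ∈ S, p.Prime) → ∀ A : ℕ → ℝ, LDr A →
      Summable (tm (fun n => if ∃ p ∈ S, p ∣ n then 0 else A n) σ) → Summable (tm A σ) := by
    intro S
    induction S using Finset.induction_on with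
    | empty =>
      intro _ A _ h1
      refine h1.congr fun n => ?_
      simp [tm]
    | insert q S hq ih =>
      intro hS A hA h1
      have hqp : q.Prime := hS q (Finset.mem_insert_self q S)
      have h2 := ih (fun p hp => hS p (Finset.mem_insert_of_mem hp)) (incp q A)
        (LDr.incp hA hqp) (by
          refine h1.congr fun n => ?_
          unfold tm incp
          congr 2
          beta_reduce
          by_cases h3 : ∃ p ∈ S, p ∣ n
          · obtain ⟨p, hp, hpn⟩ := h3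
            rw [if_pos ⟨p, Finset.mem_insert_of_mem hp, hpn⟩, if_pos ⟨p, hp, hpn⟩]
          · rw [if_neg h3]
            by_cases h4 : q ∣ n
            · rw [if_pos ⟨q, Finset.mem_insert_self q S, h4⟩, if_pos h4]
            · rw [if_neg h4, if_neg]
              rintro ⟨p, hp, hpn⟩
              rcases Finset.mem_insert.1 hp with rfl | hp
              · exact h4 hpn
              · exact h3 ⟨p, hp, hpn⟩)
      refine summable_add_prime (fun n => tm_nonneg _ _ _) (by unfold tm; simp [hA.zero]) hqp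
        (fun k m hm => ?_) (summable_local hA hqp hσ) ?_
      · unfold tm
        rw [hA.mul _ _ (((Nat.Prime.coprime_iff_not_dvd hqp).2 hm).pow_left k), abs_mul]
        push_cast
        rw [Real.mul_rpow (by positivity) (by positivity)]
        ring
      · refine h2.congr fun n => ?_
        unfold tm incp
        split_ifs <;> simp
  refine key B.primeFactors (fun p hp => (Nat.mem_primeFactors.1 hp).1) A h ?_
  refine hsum.congr fun n => ?_
  unfold tm inc
  congr 2
  beta_reduce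
  by_cases hn : n.Coprime B
  · rw [if_pos hn, if_neg]
    rintro ⟨p, hp, hpn⟩
    obtain ⟨hpp, hpB, -⟩ := Nat.mem_primeFactors.1 hp
    exact hpp.one_lt.ne' (Nat.eq_one_of_dvd_coprimes hn hpn hpB)
  · rw [if_neg hn, if_pos]
    obtain ⟨p, hpp, h1, h2⟩ := Nat.Prime.not_coprime_iff_dvd.1 hn
    exact ⟨p, Nat.mem_primeFactors.2 ⟨hpp, h2, hB⟩, h1⟩

lemma norm_term {A : ℕ → ℝ} (h0 : A 0 = 0) (s : ℂ) (n : ℕ) :
    ‖LSeries.term (fun n => (A n : ℂ)) s n‖ = tm A s.re n := by
  unfold tm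
  rcases eq_or_ne n 0 with rfl | hn
  · simp [h0]
  · rw [LSeries.norm_term_eq, if_neg hn, Complex.norm_real, Real.norm_eq_abs,
      Real.rpow_neg (Nat.cast_nonneg n)]
    rfl

/-- **the continuation is the sum of the Dirichlet series for `Re s > 3/2`** -/
theorem IsLh.hasSum {A : ℕ → ℝ} (h : LDr A) {B : ℕ} (hB : B ≠ 0)
    (hsum : ∀ s : ℂ, 3 / 2 < s.re → LSeriesSummable (fun n => (inc B A n : ℂ)) s)
    {L : ℂ → ℂ} (hL : IsLh A L) :
    ∀ s : ℂ, 3 / 2 < s.re → LSeriesHasSum (fun n => (A n : ℂ)) s (L s) := by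
  have h0 : A 0 = 0 := h.zero
  have hi0 : inc B A 0 = 0 := by
    unfold inc
    split_ifs
    · exact h0
    · rfl
  have hsum : ∀ s : ℂ, 3 / 2 < s.re → LSeriesSummable (fun n => (A n : ℂ)) s := by
    intro s hs
    have h1 : Summable (tm (inc B A) s.re) := by
      refine (hsum s hs).norm.congr fun n => ?_
      exact norm_term hi0 s n
    have h2 := summable_of_inc h hB (by linarith) h1
    refine Summable.of_norm (h2.congr fun n => ?_)
    exact (norm_term h0 s n).symm
  have hser : ∀ s : ℂ, LSeries (fun n => (A n : ℂ)) s = ∑' n : ℕ, (A n : ℂ) / (n : ℂ) ^ s := by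
    intro s
    rw [LSeries]
    refine tsum_congr fun n => ?_
    rcases Nat.eq_zero_or_pos n with rfl | hn
    · simp [h0]
    · rw [LSeries.term_of_ne_zero hn.ne']
  have habs : LSeries.abscissaOfAbsConv (fun n => (A n : ℂ)) ≤ ((3 / 2 : ℝ) : EReal) :=
    LSeries.abscissaOfAbsConv_le_of_forall_lt_LSeriesSummable fun y hy =>
      hsum y (by simpa using hy)
  have hUc : IsPreconnected {s : ℂ | (3 / 2 : ℝ) < s.re} :=
    (convex_halfSpace_re_gt (3 / 2)).isPreconnected
  have ha : AnalyticOnNhd ℂ (LSeries (fun n => (A n : ℂ))) {s : ℂ | (3 / 2 : ℝ) < s.re} := by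
    intro s hs
    apply LSeries_analyticOnNhd
    show LSeries.abscissaOfAbsConv (fun n => (A n : ℂ)) < (s.re : EReal)
    exact lt_of_le_of_lt habs (by exact_mod_cast hs)
  have hb : AnalyticOnNhd ℂ L {s : ℂ | (3 / 2 : ℝ) < s.re} := fun s hs => hL.1 s (by
    have : (3 / 2 : ℝ) < s.re := hs
    show (1 : ℝ) ≤ s.re
    linarith)
  have heq : Set.EqOn L (LSeries (fun n => (A n : ℂ))) {s : ℂ | (3 / 2 : ℝ) < s.re} := by
    refine AnalyticOnNhd.eqOn_of_preconnected_of_eventuallyEq hb ha hUc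
      (z₀ := (3 : ℂ)) (by show (3 / 2 : ℝ) < (3 : ℂ).re; norm_num) ?_
    have hopen : IsOpen {s : ℂ | 2 < s.re} := isOpen_lt continuous_const Complex.continuous_re
    have hmem : (3 : ℂ) ∈ {s : ℂ | 2 < s.re} := by
      show (2 : ℝ) < (3 : ℂ).re
      norm_num
    filter_upwards [hopen.mem_nhds hmem] with s hs
    rw [hL.2 s hs, hser]
  intro s hs
  have h1 := (hsum s hs).LSeriesHasSum
  rwa [← heq hs] at h1

end P004N.H169
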