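import Vale.Agent.P004N.H169.LF5
import Vale.Agent.P004N.H169.EllB
import Vale.Agent.P004N.H449.N0
import Vale.Agent.P004N.H65.Att
import Vale.Agent.P004N.H3.Base

/-!
# P004N.H169: the `L`-functions of the quadratic twists of an elliptic curve over `ℚ`

`WeierstrassCurve.LSeries` is Mathlib's Hasse-Weil `L`-series (minimal models at all primes).
-/

open Real Filter Topology WeierstrassCurve UpperHalfPlane
open scoped NumberTheorySymbols

namespace P004N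

open P004N.T8 P004N.H169
open Vale.Agent.P004H.H871 (kr Fd kr_odd kr_one_mod kr_zero kr_pm kr_mul kr_one)

/-- the elliptic curve `D y² = x³ + A x + B`, i.e. `y² = x³ + A D² x + B D³` -/
def tw (A B D : ℤ) : WeierstrassCurve ℚ := ⟨0, 0, 0, A * D ^ 2, B * D ^ 3⟩

lemma tw_eq (A B D : ℤ) : tw A B D = LF.sw (A * D ^ 2 : ℚ) (B * D ^ 3 : ℚ) := rfl

lemma tw_one (A B : ℤ) : tw A B 1 = LF.sw (A : ℚ) (B : ℚ) := by
  rw [tw_eq]
  norm_num

/-- `E : y² = x³ + A x + B` and the form with coefficients `a` have the same `L`-function up to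
finitely many Euler factors -/
def Att (A B : ℤ) (a : ℕ → ℤ) : Prop :=
  ∃ S : ℕ, S ≠ 0 ∧ ∀ p : ℕ, p.Prime → ¬ p ∣ S → (tw A B 1).LFunction p = a p

/-- the continuation of the `L`-series of `W` to (a neighbourhood of) `Re s ≥ 1` -/
def IsCont (W : WeierstrassCurve ℚ) (L : ℂ → ℂ) : Prop :=
  AnalyticOnNhd ℂ L {s : ℂ | 1 ≤ s.re} ∧ ∀ s : ℂ, 2 < s.re → L s = W.LSeries s

open Classical in
/-- the analytic rank: the order of vanishing at `s = 1` of the continuation of the `L`-series -/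
noncomputable def arank (W : WeierstrassCurve ℚ) : ℕ :=
  if h : ∃ L : ℂ → ℂ, IsCont W L then analyticOrderNatAt h.choose 1 else 0

/-- the real coefficients of the `L`-function -/
noncomputable def cE (W : WeierstrassCurve ℚ) (n : ℕ) : ℝ := (W.LFunction n : ℝ)

lemma cE_ldr (W : WeierstrassCurve ℚ) : LDr (cE W) where
  zero := by unfold cE; simp
  one := by
    unfold cE
    rw [(LF.LFunction_mult W).map_one, Int.cast_one]
  mul m n hmn := by
    unfold cE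
    rw [(LF.LFunction_mult W).map_mul_of_coprime hmn, Int.cast_mul]
  loc p hp := by
    have hp0 : (0 : ℝ) ≤ p := Nat.cast_nonneg p
    unfold cE
    rcases LF.LFunction_loc W hp with ⟨h1, h2⟩ | ⟨h1, h2⟩
    · left
      refine ⟨fun k => ?_, ?_⟩
      · rw [h1 k]; push_cast; ring
      · have h3 : |((W.LFunction p : ℤ) : ℝ)| ≤ p := by exact_mod_cast h2
        linarith
    · right
      refine ⟨fun k => ?_, ?_⟩
      · rw [h1 k]; push_cast; ring
      · exact_mod_cast h2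

lemma cE_le (W : WeierstrassCurve ℚ) {p : ℕ} (hp : p.Prime) : |cE W p| ≤ p := by
  unfold cE
  rcases LF.LFunction_loc W hp with ⟨-, h2⟩ | ⟨-, h2⟩
  · exact_mod_cast h2
  · have h3 : |((W.LFunction p : ℤ) : ℝ)| ≤ 1 := by exact_mod_cast h2
    have h4 : (1 : ℝ) ≤ p := by exact_mod_cast hp.one_lt.le
    linarith

lemma LSeries_eq (W : WeierstrassCurve ℚ) (s : ℂ) :
    W.LSeries s = ∑' n : ℕ, (cE W n : ℂ) / (n : ℂ) ^ s := by
  unfold WeierstrassCurve.LSeries LSeries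
  refine tsum_congr fun n => ?_
  rcases eq_or_ne n 0 with rfl | hn
  · rw [LSeries.term_zero]
    unfold cE
    simp
  · rw [LSeries.term_of_ne_zero hn]
    unfold cE
    simp

lemma isCont_iff (W : WeierstrassCurve ℚ) (L : ℂ → ℂ) : IsCont W L ↔ IsLh (cE W) L := by
  unfold IsCont IsLh
  simp only [LSeries_eq]

/-- multiplicative sequences with the same values at the prime powers prime to `B` -/
lemma eq_of_pow {u v : ℕ → ℝ} (hu1 : u 1 = 1) (hv1 : v 1 = 1)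
    (hu : ∀ m n : ℕ, m.Coprime n → u (m * n) = u m * u n)
    (hv : ∀ m n : ℕ, m.Coprime n → v (m * n) = v m * v n) {B : ℕ}
    (h : ∀ p : ℕ, p.Prime → ¬ p ∣ B → ∀ k : ℕ, u (p ^ k) = v (p ^ k)) (n : ℕ) (hn : n ≠ 0)
    (hnB : n.Coprime B) : u n = v n := by
  induction n using Nat.recOnPosPrimePosCoprime with
  | prime_pow p k hp hk =>
    exact h p hp (fun h1 => hp.one_lt.ne' (Nat.eq_one_of_dvd_coprimes
      (hnB.coprime_dvd_left (dvd_pow_self p (by omega))) dvd_rfl h1)) k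
  | zero => exact absurd rfl hn
  | one => rw [hu1, hv1]
  | coprime x y hx hy hxy ihx ihy =>
    rw [hu x y hxy, hv x y hxy, ihx (by omega) (Nat.Coprime.coprime_mul_right hnB),
      ihy (by omega) (Nat.Coprime.coprime_mul_left hnB)]

lemma pow_eq {u v : ℕ → ℝ} {p : ℕ} (hu0 : u 1 = 1) (hv0 : v 1 = 1) (h1 : u p = v p)
    (hu : ∀ k : ℕ, u (p ^ (k + 2)) = u p * u (p ^ (k + 1)) - p * u (p ^ k))
    (hv : ∀ k : ℕ, v (p ^ (k + 2)) = v p * v (p ^ (k + 1)) - p * v (p ^ k)) (k : ℕ) :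
    u (p ^ k) = v (p ^ k) ∧ u (p ^ (k + 1)) = v (p ^ (k + 1)) := by
  induction k with
  | zero => simp [hu0, hv0, h1]
  | succ k ih => exact ⟨ih.2, by rw [hu k, hv k, ih.1, ih.2, h1]⟩

variable {N : ℕ} {f : ℍ → ℂ} {a : ℕ → ℤ}

/-- the coefficients of the twists away from the bad primes -/
theorem cE_tw (hf : EF N f a) {D : ℤ} (hD : Fd D) {M : ℕ} {g : ℍ → ℂ} {b : ℕ → ℝ} {ε : ℝ}
    (h : IsTw a D M g b ε) {A B : ℤ} {S : ℕ}
    (hS : ∀ p : ℕ, p.Prime → ¬ p ∣ S → (tw A B 1).LFunction p = a p) :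
    inc (N * D.natAbs * (S * (LF.sw A B).Δ.natAbs)) (cE (tw A B D)) =
      inc (N * D.natAbs * (S * (LF.sw A B).Δ.natAbs)) b := by
  set B₀ := N * D.natAbs * (S * (LF.sw A B).Δ.natAbs) with hB₀
  obtain ⟨hMN, hMp, hb⟩ := h.eq hf hD
  have hLD := cE_ldr (tw A B D)
  funext n
  unfold inc
  split_ifs with hn
  swap
  · rfl
  rcases eq_or_ne n 0 with rfl | hn0
  · rw [hLD.zero, h.1.zero]
  refine eq_of_pow hLD.one h.1.one hLD.mul (fun m n hmn => h.1.hr.mul m n hmn) (B := B₀)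
    (fun p hp hpB k => ?_) n hn0 hn
  -- the prime
  have hpN : ¬ p ∣ N := fun h1 => hpB (by rw [hB₀]; exact (h1.mul_right _).mul_right _)
  have hpD : ¬ p ∣ D.natAbs := fun h1 => hpB (by rw [hB₀]; exact (h1.mul_left _).mul_right _)
  have hpS : ¬ p ∣ S := fun h1 => hpB (by rw [hB₀]; exact (h1.mul_right _).mul_left _)
  have hpΔ : ¬ p ∣ (LF.sw A B).Δ.natAbs := fun h1 => hpB (by
    rw [hB₀]; exact (h1.mul_left _).mul_left _)
  have hpΔ' : ¬ (p : ℤ) ∣ (LF.sw A B).Δ := fun h1 => hpΔ (Int.natCast_dvd.1 h1)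
  have hpD' : ¬ (p : ℤ) ∣ D := fun h1 => hpD (Int.natCast_dvd.1 h1)
  have hpM : ¬ p ∣ M := by
    intro h1
    rcases (Nat.Prime.dvd_mul hp).1 (hMp p hp h1) with h2 | h2
    · exact hpN h2
    · exact hpD h2
  have hp2 : p ≠ 2 := by
    rintro rfl
    apply hpΔ'
    rw [LF.sw_Δ]
    exact Dvd.dvd.mul_right (by norm_num) _
  have hodd : Odd p := hp.odd_of_ne_two hp2
  have : Fact p.Prime := ⟨hp⟩
  -- the coefficient at `p`
  have e1 : cE (tw A B D) p = b p := by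
    rw [hb p ((Nat.Prime.coprime_iff_not_dvd hp).2 (fun h1 => by
      rcases (Nat.Prime.dvd_mul hp).1 h1 with h2 | h2
      · exact hpN h2
      · exact hpD h2))]
    unfold cE
    rw [tw_eq, LF.LFunction_twist A B D hp hpΔ' hpD', ← hS p hp hpS, tw_one,
      kr_odd hD hodd, ← jacobiSym.legendreSym.to_jacobiSym]
    push_cast
    ring
  -- the recursion
  have hΔD : ¬ (p : ℤ) ∣ (LF.sw (A * D ^ 2) (B * D ^ 3)).Δ := by
    have hp' : Prime (p : ℤ) := Nat.prime_iff_prime_int.1 hp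
    have e : (LF.sw (A * D ^ 2) (B * D ^ 3)).Δ = D ^ 6 * (LF.sw A B).Δ := by
      rw [LF.sw_Δ, LF.sw_Δ]; ring
    rw [e]
    intro h1
    rcases hp'.dvd_or_dvd h1 with h2 | h2
    · exact hpD' (hp'.dvd_of_dvd_pow h2)
    · exact hpΔ' h2
  have hrec := (LF.LFunction_good (LF.sw (A * D ^ 2) (B * D ^ 3)) hp hΔD).2
  rw [LF.sw_map] at hrec
  simp only [map_mul, map_pow, eq_intCast] at hrec
  rw [← tw_eq] at hrec
  refine (pow_eq hLD.one h.1.one e1 (fun k => ?_) (fun k => h.1.hr.hecke hp hpM k) k).1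
  unfold cE
  rw [hrec k]
  push_cast
  ring

/-- **the `L`-series of `D y² = x³ + A x + B` continues to `Re s ≥ 1` and its order of vanishing at
`s = 1` is that of the `L`-function of the newform attached to `f ⊗ χ_D`** -/
theorem ell_order (hf : EF N f a) {D : ℤ} (hD : Fd D) {M : ℕ} {g : ℍ → ℂ} {b : ℕ → ℝ} {ε : ℝ}
    (h : IsTw a D M g b ε) {L : ℂ → ℂ} (hL : IsLr b L) {A B : ℤ}
    (hΔ : 4 * A ^ 3 + 27 * B ^ 2 ≠ 0) (hA : Att A B a) :
    ∃ L' : ℂ → ℂ, IsCont (tw A B D) L' ∧ analyticOrderAt L' 1 = analyticOrderAt L 1 ∧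
      arank (tw A B D) = analyticOrderNatAt L 1 := by
  classical
  obtain ⟨S, hS0, hS⟩ := hA
  have hΔ0 : (LF.sw A B).Δ ≠ 0 := by
    rw [LF.sw_Δ]
    exact mul_ne_zero (by norm_num) hΔ
  have hB : N * D.natAbs * (S * (LF.sw A B).Δ.natAbs) ≠ 0 :=
    mul_ne_zero (mul_ne_zero hf.pos.ne' (Int.natAbs_ne_zero.2 hD.ne))
      (mul_ne_zero hS0 (Int.natAbs_ne_zero.2 hΔ0))
  obtain ⟨L₁, h1, h2⟩ := T8.remove_all (A := b) h.1.ldr (H503.Sum.sm_of_ldr h.1.ldr) hB
    (fun p hp _ => h.1.lt hp) hL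
  rw [← cE_tw hf hD h hS] at h1
  obtain ⟨L', h3, h4⟩ := add_factors (cE_ldr (tw A B D)) (fun p hp => cE_le _ hp) hB h1
  have h5 : IsCont (tw A B D) L' := (isCont_iff _ _).2 h3
  refine ⟨L', h5, h4.trans h2, ?_⟩
  have hex : ∃ L : ℂ → ℂ, IsCont (tw A B D) L := ⟨L', h5⟩
  unfold arank
  rw [dif_pos hex]
  have h6 := (IsLh.order_eq ((isCont_iff _ _).1 hex.choose_spec) h3).2
  unfold analyticOrderNatAt
  rw [h6, h4, h2]

/-- the coprime part of an absolutely convergent series -/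
lemma inc_summable {b : ℕ → ℝ} {B : ℕ} {s : ℂ} (h : LSeriesSummable (fun n => (b n : ℂ)) s) :
    LSeriesSummable (fun n => (inc B b n : ℂ)) s := by
  refine Summable.of_norm_bounded h.norm fun n => ?_
  rcases eq_or_ne n 0 with rfl | hn
  · simp
  · rw [LSeries.norm_term_eq, LSeries.norm_term_eq, if_neg hn, if_neg hn]
    refine div_le_div_of_nonneg_right ?_ (by positivity)
    unfold inc
    split_ifs
    · exact le_rfl
    · simp

/-- `L` is analytic on (a neighbourhood of) `Re s ≥ 1`, and for `Re s > 3/2` it is the sum of the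
`L`-series of `W` -/
def IsEll (W : WeierstrassCurve ℚ) (L : ℂ → ℂ) : Prop :=
  AnalyticOnNhd ℂ L {s : ℂ | 1 ≤ s.re} ∧
    ∀ s : ℂ, 3 / 2 < s.re → LSeriesHasSum (fun n => (W.LFunction n : ℂ)) s (L s)

lemma IsEll.isCont {W : WeierstrassCurve ℚ} {L : ℂ → ℂ} (h : IsEll W L) : IsCont W L :=
  ⟨h.1, fun s hs => (h.2 s (by linarith)).LSeries_eq.symm⟩

/-- **the `L`-function of `D y² = x³ + A x + B`** -/
theorem ell_isEll (hf : EF N f a) {D : ℤ} (hD : Fd D) {M : ℕ} {g : ℍ → ℂ} {b : ℕ → ℝ} {ε : ℝ}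
    (h : IsTw a D M g b ε) {L : ℂ → ℂ} (hL : IsLr b L) {A B : ℤ}
    (hΔ : 4 * A ^ 3 + 27 * B ^ 2 ≠ 0) (hA : Att A B a) :
    ∃ L' : ℂ → ℂ, IsEll (tw A B D) L' ∧ analyticOrderAt L' 1 = analyticOrderAt L 1 := by
  obtain ⟨L', h1, h2, -⟩ := ell_order hf hD h hL hΔ hA
  refine ⟨L', ⟨h1.1, ?_⟩, h2⟩
  obtain ⟨S, hS0, hS⟩ := hA
  have hΔ0 : (LF.sw A B).Δ ≠ 0 := by
    rw [LF.sw_Δ]
    exact mul_ne_zero (by norm_num) hΔ
  have hB : N * D.natAbs * (S * (LF.sw A B).Δ.natAbs) ≠ 0 :=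
    mul_ne_zero (mul_ne_zero hf.pos.ne' (Int.natAbs_ne_zero.2 hD.ne))
      (mul_ne_zero hS0 (Int.natAbs_ne_zero.2 hΔ0))
  obtain ⟨C, hC⟩ := P004N.H449.pfN0N M g b ε h.1
  have hb := H503.Sum.hasSum_32 hL ⟨C, hC.2⟩ h.1.zero
  have key := IsLh.hasSum (cE_ldr (tw A B D)) hB (fun s hs => by
    rw [cE_tw hf hD h hS]
    exact inc_summable (hb s hs).LSeriesSummable) ((isCont_iff _ _).1 h1)
  intro s hs
  have e : (fun n => ((cE (tw A B D) n : ℝ) : ℂ)) = fun n => (((tw A B D).LFunction n : ℤ) : ℂ) := by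
    funext n
    unfold cE
    push_cast
    rfl
  rw [← e]
  exact key s hs

/-- the continuation and its order at `1` are unique -/
theorem IsCont.unique {W : WeierstrassCurve ℚ} {L L' : ℂ → ℂ} (h : IsCont W L)
    (h' : IsCont W L') : (∀ s : ℂ, 1 ≤ s.re → L s = L' s) ∧
      analyticOrderAt L 1 = analyticOrderAt L' 1 :=
  IsLh.order_eq ((isCont_iff _ _).1 h) ((isCont_iff _ _).1 h')

end P004N
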