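import Vale.Agent.P004N.H3.Euler
import Vale.Agent.P004N.H503.Sum

/-!
# P004N.H169: putting Euler factors back; continuation to `Re s ≥ 1`
-/

open Real Filter Topology

namespace P004N.H169

open P004N P004N.T8

/-- `L` is analytic on (a neighbourhood of) `Re s ≥ 1` and continues `∑ A n n^{-s}` -/
def IsLh (A : ℕ → ℝ) (L : ℂ → ℂ) : Prop :=
  AnalyticOnNhd ℂ L {s : ℂ | 1 ≤ s.re} ∧
    ∀ s : ℂ, 2 < s.re → L s = ∑' n : ℕ, (A n : ℂ) / (n : ℂ) ^ s

/-- no zeros of the Euler factor, as a polynomial -/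
lemma factor_ne {p : ℝ} (hp : 2 ≤ p) {a R : ℝ} (h : R = p ∧ |a| ≤ p ∨ R = 0 ∧ |a| ≤ 1) {T : ℂ}
    (hT : ‖T‖ ≤ 1 / p) : 1 - a * T + R * T ^ 2 ≠ 0 := by
  have hp0 : 0 < p := by linarith
  rcases h with ⟨rfl, ha⟩ | ⟨rfl, ha⟩
  · intro h0
    have hre := congrArg Complex.re h0
    have him := congrArg Complex.im h0
    simp only [sq, Complex.add_re, Complex.sub_re, Complex.mul_re, Complex.ofReal_re,
      Complex.ofReal_im, Complex.add_im, Complex.sub_im, Complex.mul_im, Complex.one_re,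
      Complex.one_im, Complex.zero_re, Complex.zero_im] at hre him
    have hn : T.re ^ 2 + T.im ^ 2 ≤ 1 / R ^ 2 := by
      have h1 : ‖T‖ ^ 2 ≤ (1 / R) ^ 2 := pow_le_pow_left₀ (norm_nonneg _) hT 2
      rw [Complex.sq_norm, Complex.normSq_apply] at h1
      calc T.re ^ 2 + T.im ^ 2 = T.re * T.re + T.im * T.im := by ring
        _ ≤ (1 / R) ^ 2 := h1
        _ = 1 / R ^ 2 := by ring
    by_cases hi : T.im = 0
    · have h2 : |T.re| ≤ 1 / R := by
        have := Complex.abs_re_le_norm T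
        linarith
      have h3 : a * T.re ≤ R * |T.re| := by
        calc a * T.re ≤ |a * T.re| := le_abs_self _
          _ = |a| * |T.re| := abs_mul _ _
          _ ≤ R * |T.re| := mul_le_mul_of_nonneg_right ha (abs_nonneg _)
      have h4 : R * |T.re| ≤ 1 := by
        calc R * |T.re| ≤ R * (1 / R) := mul_le_mul_of_nonneg_left h2 hp0.le
          _ = 1 := by field_simp
      rw [hi] at hre
      have h5 : 1 - a * T.re + R * T.re ^ 2 = 0 := by linarith
      have h6 : 0 ≤ R * T.re ^ 2 := by positivity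
      have h7 : T.re = 0 := by
        have : R * T.re ^ 2 = 0 := by linarith
        rcases mul_eq_zero.1 this with h8 | h8
        · linarith
        · exact pow_eq_zero_iff (two_ne_zero) |>.1 h8
      rw [h7] at h5
      norm_num at h5
    · have h1 : a = 2 * R * T.re := by
        have : T.im * (2 * R * T.re - a) = 0 := by linarith
        rcases mul_eq_zero.1 this with h2 | h2
        · exact absurd h2 hi
        · linarith
      have h2 : R * (T.re ^ 2 + T.im ^ 2) = 1 := by
        rw [h1] at hre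
        linarith
      have h3 : R * (T.re ^ 2 + T.im ^ 2) ≤ R * (1 / R ^ 2) :=
        mul_le_mul_of_nonneg_left hn hp0.le
      have h4 : R * (1 / R ^ 2) = 1 / R := by field_simp
      have h5 : 1 / R ≤ 1 / 2 := one_div_le_one_div_of_le (by norm_num) hp
      linarith
  · intro h0
    have h1 : (a : ℂ) * T = 1 := by
      have : 1 - a * T + (0 : ℝ) * T ^ 2 = 1 - (a : ℂ) * T := by simp
      rw [this] at h0
      exact (sub_eq_zero.1 h0).symm
    have h2 : ‖(a : ℂ) * T‖ = 1 := by rw [h1, norm_one]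
    rw [norm_mul, Complex.norm_real, Real.norm_eq_abs] at h2
    have h3 : |a| * ‖T‖ ≤ 1 * (1 / p) := mul_le_mul ha hT (norm_nonneg _) (by norm_num)
    have h4 : 1 / p ≤ 1 / 2 := one_div_le_one_div_of_le (by norm_num) hp
    linarith

/-- **putting the Euler factors back** -/
theorem add_factors {A : ℕ → ℝ} (h : LDr A)
    (hb : ∀ p : ℕ, p.Prime → |A p| ≤ p) {B : ℕ} (hB : B ≠ 0)
    {L : ℂ → ℂ} (hL : IsLr (inc B A) L) :
    ∃ L' : ℂ → ℂ, IsLh A L' ∧ analyticOrderAt L' 1 = analyticOrderAt L 1 := by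
  classical
  have hS : Sm A := H503.Sum.sm_of_ldr h
  have key : ∀ S : Finset ℕ, (∀ p ∈ S, p.Prime) →
      ∃ (A' : ℕ → ℝ) (E : ℂ → ℂ), (∀ n, A' n = if ∃ p ∈ S, p ∣ n then 0 else A n) ∧ LDr A' ∧
        Sm A' ∧ Differentiable ℂ E ∧ (∀ s : ℂ, 1 ≤ s.re → E s ≠ 0) ∧
        ∀ s : ℂ, 2 < s.re → ∑' n : ℕ, (A' n : ℂ) / (n : ℂ) ^ s =
          E s * ∑' n : ℕ, (A n : ℂ) / (n : ℂ) ^ s := by
    intro S
    induction S using Finset.induction_on with
    | empty =>
      intro _
      exact ⟨A, fun _ => 1, fun n => by simp, h, hS, differentiable_const _, fun s _ => one_ne_zero,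
        fun s _ => by rw [one_mul]⟩
    | insert q S hq ih =>
      intro h1
      obtain ⟨A', E, hA', hLD', hS', hE, hE0, hrel⟩ := ih
        (fun p hp => h1 p (Finset.mem_insert_of_mem hp))
      have hqp : q.Prime := h1 q (Finset.mem_insert_self q S)
      have hq0 : (q : ℂ) ≠ 0 := by exact_mod_cast hqp.ne_zero
      have hq2 : (2 : ℝ) ≤ q := by exact_mod_cast hqp.two_le
      have hq1 : |A' q| ≤ q := by
        rw [hA']
        split_ifs
        · rw [abs_zero]; positivity
        · exact hb q hqp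
      obtain ⟨R, hR, hrelq⟩ := ldr_rel hLD' hqp
      have hR' : R = (q : ℝ) ∧ |A' q| ≤ q ∨ R = 0 ∧ |A' q| ≤ 1 := by
        rcases hR with ⟨h2, -⟩ | h2
        · exact Or.inl ⟨h2, hq1⟩
        · exact Or.inr h2
      refine ⟨incp q A', fun s => (1 - A' q * (q : ℂ) ^ (-s) + R * (q : ℂ) ^ (-2 * s)) * E s,
        fun n => ?_, LDr.incp hLD' hqp, hS'.incp q, ?_, ?_, ?_⟩
      · unfold incp
        rw [hA']
        by_cases h3 : q ∣ n
        · rw [if_pos h3, if_pos ⟨q, Finset.mem_insert_self q S, h3⟩]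
        · rw [if_neg h3]
          congr 1
          apply propext
          constructor
          · rintro ⟨p, hp, hpn⟩
            exact ⟨p, Finset.mem_insert_of_mem hp, hpn⟩
          · rintro ⟨p, hp, hpn⟩
            rcases Finset.mem_insert.1 hp with rfl | hp
            · exact absurd hpn h3
            · exact ⟨p, hp, hpn⟩
      · intro s
        refine DifferentiableAt.mul (DifferentiableAt.add (DifferentiableAt.sub
          (differentiableAt_const _) (DifferentiableAt.const_mul ?_ _))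
          (DifferentiableAt.const_mul ?_ _)) (hE s)
        · exact DifferentiableAt.const_cpow differentiableAt_id.neg (Or.inl hq0)
        · exact DifferentiableAt.const_cpow (differentiableAt_id.const_mul _) (Or.inl hq0)
      · intro s hs
        refine mul_ne_zero ?_ (hE0 s hs)
        have hT : ‖(q : ℂ) ^ (-s)‖ ≤ 1 / q := by
          rw [Complex.norm_natCast_cpow_of_pos hqp.pos, Complex.neg_re, one_div,
            ← Real.rpow_neg_one]
          exact Real.rpow_le_rpow_of_exponent_le (by linarith) (by linarith)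
        have e : (q : ℂ) ^ (-2 * s) = ((q : ℂ) ^ (-s)) ^ 2 := by
          rw [sq, ← Complex.cpow_add _ _ hq0]
          congr 1
          ring
        rw [e]
        exact factor_ne hq2 hR' hT
      · intro s hs
        rw [remove_series hqp hrelq (hS' s hs), hrel s hs]
        ring
  obtain ⟨A', E, hA', -, -, hE, hE0, hrel⟩ := key B.primeFactors
    (fun p hp => (Nat.mem_primeFactors.1 hp).1)
  have e : A' = inc B A := by
    funext n
    rw [hA']
    unfold inc
    by_cases hn : n.Coprime B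
    · rw [if_pos hn, if_neg]
      rintro ⟨p, hp, hpn⟩
      obtain ⟨hpp, hpB, -⟩ := Nat.mem_primeFactors.1 hp
      exact hpp.one_lt.ne' (Nat.eq_one_of_dvd_coprimes hn hpn hpB)
    · rw [if_neg hn, if_pos]
      obtain ⟨p, hpp, h1, h2⟩ := Nat.Prime.not_coprime_iff_dvd.1 hn
      exact ⟨p, Nat.mem_primeFactors.2 ⟨hpp, h2, hB⟩, h1⟩
  rw [e] at hrel
  have hL'a : AnalyticOnNhd ℂ (fun s => L s / E s) {s : ℂ | 1 ≤ s.re} := by
    intro s hs
    exact (hL.1.analyticAt s).div (hE.analyticAt s) (hE0 s hs)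
  refine ⟨fun s => L s / E s, ⟨hL'a, fun s hs => ?_⟩, ?_⟩
  · show L s / E s = _
    rw [hL.2 s hs, hrel s hs, mul_div_cancel_left₀ _ (hE0 s (by linarith))]
  · have h1 : AnalyticAt ℂ E 1 := hE.analyticAt 1
    have h2 : AnalyticAt ℂ (fun s => L s / E s) 1 := hL'a 1 (by simp)
    have h3 : analyticOrderAt E 1 = 0 := h1.analyticOrderAt_eq_zero.2 (hE0 1 (by simp))
    have h4 := analyticOrderAt_mul h1 h2
    have h5 : L =ᶠ[𝓝 1] (E * fun s => L s / E s) := by
      have hne : ∀ᶠ s in 𝓝 (1 : ℂ), E s ≠ 0 :=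
        h1.continuousAt.eventually_ne (hE0 1 (by simp))
      filter_upwards [hne] with s hs
      rw [Pi.mul_apply, mul_div_cancel₀ _ hs]
    rw [analyticOrderAt_congr h5, h4, h3, zero_add]

/-- uniqueness of the continuation and of its order at `1` -/
theorem IsLh.order_eq {A : ℕ → ℝ} {L L' : ℂ → ℂ} (h : IsLh A L) (h' : IsLh A L') :
    (∀ s : ℂ, 1 ≤ s.re → L s = L' s) ∧ analyticOrderAt L 1 = analyticOrderAt L' 1 := by
  have hconv : Convex ℝ {s : ℂ | 1 ≤ s.re} := convex_halfSpace_re_ge 1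
  have h3 : (3 : ℂ) ∈ {s : ℂ | 1 ≤ s.re} := by
    show (1 : ℝ) ≤ (3 : ℂ).re
    norm_num
  have heq : L =ᶠ[𝓝 (3 : ℂ)] L' := by
    have ho : IsOpen {s : ℂ | 2 < s.re} := isOpen_lt continuous_const Complex.continuous_re
    have hm : (3 : ℂ) ∈ {s : ℂ | 2 < s.re} := by
      show (2 : ℝ) < (3 : ℂ).re
      norm_num
    filter_upwards [ho.mem_nhds hm] with s hs
    rw [h.2 s hs, h'.2 s hs]
  have hall := h.1.eqOn_of_preconnected_of_eventuallyEq h'.1 hconv.isPreconnected h3 heq
  refine ⟨fun s hs => hall hs, ?_⟩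
  have h1 : (1 : ℂ) ∈ {s : ℂ | 1 ≤ s.re} := by simp
  have a1 := h.1 1 h1
  have a2 := h'.1 1 h1
  have hfr : ∃ᶠ z in 𝓝[≠] (1 : ℂ), L z = L' z := by
    rw [frequently_nhdsWithin_iff, Metric.nhds_basis_ball.frequently_iff]
    intro ε hε
    refine ⟨1 + (ε / 2 : ℝ), ?_, hall ?_, ?_⟩
    · rw [Metric.mem_ball, dist_eq_norm, add_sub_cancel_left, Complex.norm_real,
        Real.norm_of_nonneg (by linarith)]
      linarith
    · show (1 : ℝ) ≤ (1 + ((ε / 2 : ℝ) : ℂ)).re
      rw [Complex.add_re, Complex.one_re, Complex.ofReal_re]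
      linarith
    · intro h2
      have h3 : ((ε / 2 : ℝ) : ℂ) = 0 := by
        have h4 : (1 + ((ε / 2 : ℝ) : ℂ)) = 1 := h2
        linear_combination h4
      rw [Complex.ofReal_eq_zero] at h3
      linarith
  exact analyticOrderAt_congr ((a1.frequently_eq_iff_eventually_eq a2).1 hfr)

end P004N.H169
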