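import Mathlib

/-!
# Euler products of arithmetic functions: values at prime powers
-/

open ArithmeticFunction IsDedekindDomain Filter

namespace P004N.H169.LF

/-- Dirichlet product at a prime power when the second factor is trivial there -/
lemma mul_apply_pow {R : Type*} [CommRing R] (f g : ArithmeticFunction R) {p : ℕ} (hp : p.Prime)
    (hg1 : g 1 = 1) (hg : ∀ j : ℕ, 1 ≤ j → g (p ^ j) = 0) (k : ℕ) : (f * g) (p ^ k) = f (p ^ k) := by
  rw [ArithmeticFunction.mul_apply, Nat.sum_divisorsAntidiagonal (fun a b => f a * g b),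
    Nat.sum_divisors_prime_pow hp, Finset.sum_range_succ, Finset.sum_eq_zero, zero_add,
    Nat.div_self (pow_pos hp.pos k), hg1, mul_one]
  intro i hi
  have hik : i < k := Finset.mem_range.1 hi
  rw [Nat.pow_div hik.le hp.pos, hg (k - i) (by omega), mul_zero]

lemma prod_apply_pow {R ι : Type*} [CommRing R] (s : Finset ι) (f : ι → ArithmeticFunction R)
    {p : ℕ} (hp : p.Prime) (h1 : ∀ i ∈ s, f i 1 = 1) (h : ∀ i ∈ s, ∀ j : ℕ, 1 ≤ j → f i (p ^ j) = 0) :
    (∏ i ∈ s, f i) 1 = 1 ∧ ∀ j : ℕ, 1 ≤ j → (∏ i ∈ s, f i) (p ^ j) = 0 := by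
  classical
  induction s using Finset.induction_on with
  | empty =>
    refine ⟨by simp, fun j hj => ?_⟩
    rw [Finset.prod_empty, ArithmeticFunction.one_apply_ne]
    exact (Nat.one_lt_pow (by omega) hp.one_lt).ne'
  | insert a s ha ih =>
    obtain ⟨i1, i2⟩ := ih (fun i hi => h1 i (Finset.mem_insert_of_mem hi))
      (fun i hi => h i (Finset.mem_insert_of_mem hi))
    rw [Finset.prod_insert ha]
    refine ⟨?_, fun j hj => ?_⟩
    · have := mul_apply_pow (f a) (∏ i ∈ s, f i) hp i1 i2 0
      rw [pow_zero] at this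
      rw [this]
      exact h1 a (Finset.mem_insert_self a s)
    · rw [mul_apply_pow (f a) (∏ i ∈ s, f i) hp i1 i2 j]
      exact h a (Finset.mem_insert_self a s) j hj

/-- the value of an Euler product at a prime power -/
theorem eulerProduct_pow {ι R : Type*} [CommRing R] (q : ι → ℕ) [Northcott q]
    (f : ι → PowerSeries R) (hf : ∀ i, (f i).constantCoeff = 1) (hq : ∀ i, (q i).Prime)
    (hinj : Function.Injective q) (i : ι) (k : ℕ) :
    eulerProduct (fun i => ofPowerSeries (q i) (f i)) (q i ^ k) = (f i).coeff k := by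
  classical
  obtain ⟨s, hs⟩ := (tendsTo_eulerProduct_ofPowerSeries q f hf (q i ^ k)).exists_forall_of_atTop
  have h1 := hs (insert i s) (Finset.subset_insert i s)
  rw [← h1, ← Finset.mul_prod_erase _ _ (Finset.mem_insert_self i s)]
  obtain ⟨g1, g2⟩ := prod_apply_pow ((insert i s).erase i)
    (fun j => ofPowerSeries (q j) (f j)) (hq i) (fun j _ => by
      rw [ofPowerSeries_apply_one, hf]) (fun j hj m hm => by
        have hji : j ≠ i := (Finset.mem_erase.1 hj).1
        rw [ofPowerSeries_apply (hq j).one_lt, Function.extend_apply', Pi.zero_apply]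
        rintro ⟨n, hn⟩
        have hn' : q j ^ n = q i ^ m := hn
        have hdvd : q i ∣ q j ^ n := by
          rw [hn']
          exact dvd_pow_self _ (by omega)
        have := (Nat.prime_dvd_prime_iff_eq (hq i) (hq j)).1 ((hq i).dvd_of_dvd_pow hdvd)
        exact hji (hinj this.symm))
  rw [mul_apply_pow _ _ (hq i) g1 g2, ofPowerSeries_apply_pow (hq i).one_lt]

open Polynomial in
/-- coefficients of `1 / (1 - a X + q X ^ 2)` -/
theorem inv_coeff (P : ℤ[X]) (a q : ℤ) (hP : P = 1 - C a * X + C q * X ^ 2) :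
    (PowerSeries.invOfUnit (P : PowerSeries ℤ) 1).coeff 0 = 1 ∧
    (PowerSeries.invOfUnit (P : PowerSeries ℤ) 1).coeff 1 = a ∧
    ∀ k : ℕ, (PowerSeries.invOfUnit (P : PowerSeries ℤ) 1).coeff (k + 2) =
      a * (PowerSeries.invOfUnit (P : PowerSeries ℤ) 1).coeff (k + 1) -
        q * (PowerSeries.invOfUnit (P : PowerSeries ℤ) 1).coeff k := by
  have hc : (P : PowerSeries ℤ).constantCoeff = ((1 : ℤˣ) : ℤ) := by
    rw [Polynomial.constantCoeff_coe, hP]
    simp
  have hmul := PowerSeries.mul_invOfUnit (P : PowerSeries ℤ) 1 hc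
  set g := PowerSeries.invOfUnit (P : PowerSeries ℤ) 1 with hg
  have hPc : (P : PowerSeries ℤ) = 1 - PowerSeries.C a * PowerSeries.X +
      PowerSeries.C q * PowerSeries.X ^ 2 := by
    rw [hP, Polynomial.coe_add, Polynomial.coe_sub, Polynomial.coe_mul, Polynomial.coe_mul,
      Polynomial.coe_pow, Polynomial.coe_C, Polynomial.coe_C, Polynomial.coe_X, Polynomial.coe_one]
  have e : ∀ n, (g - PowerSeries.C a * (PowerSeries.X * g) +
      PowerSeries.C q * (PowerSeries.X ^ 2 * g)).coeff n = (1 : PowerSeries ℤ).coeff n := by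
    intro n
    rw [← hmul, hPc]
    congr 1
    ring
  refine ⟨?_, ?_, fun k => ?_⟩
  · have := e 0
    rw [map_add, map_sub, PowerSeries.coeff_C_mul, PowerSeries.coeff_C_mul,
      PowerSeries.coeff_zero_X_mul, PowerSeries.coeff_X_pow_mul'] at this
    simpa using this
  · have h0 := e 0
    have := e 1
    rw [map_add, map_sub, PowerSeries.coeff_C_mul, PowerSeries.coeff_C_mul,
      PowerSeries.coeff_zero_X_mul, PowerSeries.coeff_X_pow_mul'] at h0
    rw [map_add, map_sub, PowerSeries.coeff_C_mul, PowerSeries.coeff_C_mul,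
      PowerSeries.coeff_succ_X_mul, PowerSeries.coeff_X_pow_mul'] at this
    have h1 : (1 : PowerSeries ℤ).coeff 1 = 0 := by
      rw [PowerSeries.coeff_one]; simp
    have h2 : (1 : PowerSeries ℤ).coeff 0 = 1 := by
      rw [PowerSeries.coeff_one]; simp
    rw [h1] at this
    rw [h2] at h0
    norm_num at this h0
    rw [h0] at this
    linarith
  · have := e (k + 2)
    rw [map_add, map_sub, PowerSeries.coeff_C_mul, PowerSeries.coeff_C_mul,
      PowerSeries.coeff_succ_X_mul, PowerSeries.coeff_X_pow_mul', PowerSeries.coeff_one] at this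
    rw [if_pos (by omega), if_neg (by omega), Nat.add_sub_cancel] at this
    linarith

end P004N.H169.LF
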