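import Mathlib

/-!
# Weierstrass curves over a discrete valuation ring: local polynomials
-/

open IsDiscreteValuationRing WeierstrassCurve

namespace P004N.H169.LF

/-! ### points over a finite field -/

section Points

variable {F : Type*} [Field F]

/-- the number of affine solutions -/
noncomputable def cnt (W : WeierstrassCurve F) : ℕ :=
  Nat.card {xy : F × F // W.toAffine.Equation xy.1 xy.2}

lemma card_point [Finite F] (W : WeierstrassCurve F) (h : W.Δ ≠ 0) :
    Nat.card W.toAffine.Point = cnt W + 1 := by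
  rw [Nat.card_congr (Affine.nonsingularPointEquiv W.toAffine)]
  have e : {xy : F × F // W.toAffine.Nonsingular xy.1 xy.2} ≃
      {xy : F × F // W.toAffine.Equation xy.1 xy.2} :=
    Equiv.subtypeEquivRight fun xy =>
      (Affine.equation_iff_nonsingular_of_Δ_ne_zero (W := W.toAffine) h).symm
  have h1 : Nat.card (WithZero {xy : F × F // W.toAffine.Nonsingular xy.1 xy.2}) =
      Nat.card (Option {xy : F × F // W.toAffine.Nonsingular xy.1 xy.2}) := rfl
  rw [h1, Finite.card_option, Nat.card_congr e]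
  rfl

/-- the change of variables on solutions -/
lemma equation_change (C : VariableChange F) (W : WeierstrassCurve F) (x y : F) :
    (C • W).toAffine.Equation x y ↔ W.toAffine.Equation ((C.u : F) ^ 2 * x + C.r)
      ((C.u : F) ^ 3 * y + (C.u : F) ^ 2 * C.s * x + C.t) := by
  have hu : (C.u : F) ≠ 0 := C.u.ne_zero
  have hui : ((C.u⁻¹ : Fˣ) : F) = (C.u : F)⁻¹ := Units.val_inv_eq_inv_val _
  rw [Affine.equation_iff', Affine.equation_iff']
  have e : ((C.u : F) ^ 2 * x + C.r) = (C.u : F) ^ 2 * x + C.r := rfl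
  have key : (((C.u : F) ^ 3 * y + (C.u : F) ^ 2 * C.s * x + C.t) ^ 2 +
      W.a₁ * ((C.u : F) ^ 2 * x + C.r) * ((C.u : F) ^ 3 * y + (C.u : F) ^ 2 * C.s * x + C.t) +
      W.a₃ * ((C.u : F) ^ 3 * y + (C.u : F) ^ 2 * C.s * x + C.t) -
      (((C.u : F) ^ 2 * x + C.r) ^ 3 + W.a₂ * ((C.u : F) ^ 2 * x + C.r) ^ 2 +
        W.a₄ * ((C.u : F) ^ 2 * x + C.r) + W.a₆)) =
      (C.u : F) ^ 6 * (y ^ 2 + (C • W).a₁ * x * y + (C • W).a₃ * y -
        (x ^ 3 + (C • W).a₂ * x ^ 2 + (C • W).a₄ * x + (C • W).a₆)) := by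
    rw [variableChange_a₁, variableChange_a₂, variableChange_a₃, variableChange_a₄,
      variableChange_a₆, hui]
    field_simp
    ring
  rw [key]
  simp [hu]

lemma cnt_change (C : VariableChange F) (W : WeierstrassCurve F) : cnt (C • W) = cnt W := by
  have hu : (C.u : F) ≠ 0 := C.u.ne_zero
  refine Nat.card_congr (Equiv.subtypeEquiv
    { toFun := fun xy => ((C.u : F) ^ 2 * xy.1 + C.r,
        (C.u : F) ^ 3 * xy.2 + (C.u : F) ^ 2 * C.s * xy.1 + C.t)
      invFun := fun xy => ((xy.1 - C.r) / (C.u : F) ^ 2,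
        (xy.2 - C.s * (xy.1 - C.r) - C.t) / (C.u : F) ^ 3)
      left_inv := fun xy => by
        ext
        · simp only
          field_simp
          ring
        · simp only
          field_simp
          ring
      right_inv := fun xy => by
        ext
        · simp only
          field_simp
          ring
        · simp only
          field_simp
          ring } fun xy => equation_change C W xy.1 xy.2)

lemma cnt_le [Finite F] (W : WeierstrassCurve F) : cnt W ≤ 2 * Nat.card F := by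
  classical
  have : Fintype F := Fintype.ofFinite F
  have hinj : ∃ f : {xy : F × F // W.toAffine.Equation xy.1 xy.2} → F × Bool,
      Function.Injective f := by
    choose! g hg using fun x : F => (show ∃ y₀ : F, (∃ y, W.toAffine.Equation x y) →
      W.toAffine.Equation x y₀ from by
        by_cases h : ∃ y, W.toAffine.Equation x y
        · exact ⟨h.choose, fun _ => h.choose_spec⟩
        · exact ⟨0, fun h' => absurd h' h⟩)
    refine ⟨fun xy => (xy.1.1, decide (xy.1.2 = g xy.1.1)), ?_⟩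
    rintro ⟨⟨x, y⟩, h⟩ ⟨⟨x', y'⟩, h'⟩ hxy
    simp only [Prod.mk.injEq, decide_eq_decide] at hxy
    obtain ⟨rfl, h2⟩ := hxy
    have h0 := hg x ⟨y, h⟩
    simp only at h h'
    congr 2
    by_cases hy : y = g x
    · rw [hy, h2.1 hy]
    · have hy' : y' ≠ g x := fun h3 => hy (h2.2 h3)
      rw [Affine.equation_iff'] at h h' h0
      have e1 : (y - g x) * (y + g x + W.a₁ * x + W.a₃) = 0 := by linear_combination h - h0
      have e2 : (y' - g x) * (y' + g x + W.a₁ * x + W.a₃) = 0 := by linear_combination h' - h0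
      have f1 := (mul_eq_zero.1 e1).resolve_left (sub_ne_zero.2 hy)
      have f2 := (mul_eq_zero.1 e2).resolve_left (sub_ne_zero.2 hy')
      linear_combination f1 - f2
  obtain ⟨f, hf⟩ := hinj
  have := Nat.card_le_card_of_injective f hf
  rw [Nat.card_prod, Nat.card_eq_fintype_card (α := Bool), Fintype.card_bool] at this
  unfold cnt
  omega

end Points

/-! ### integral models -/

section DVR

variable (R : Type*) [CommRing R] [IsDomain R] [IsDiscreteValuationRing R]
variable {K : Type*} [Field K] [Algebra R K] [IsFractionRing R K]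

theorem good_of_unit (W₀ : WeierstrassCurve R) (h : IsUnit W₀.Δ) :
    ((W₀.map (algebraMap R K)).minimal R).HasGoodReduction R := by
  set W : WeierstrassCurve K := W₀.map (algebraMap R K) with hW
  have hint : WeierstrassCurve.IsIntegral R W := ⟨W₀, rfl⟩
  have hmin : IsMinimal R (W.minimal R) := inferInstance
  obtain ⟨C, hC⟩ : ∃ C : VariableChange K, W.minimal R = C • W := ⟨_, rfl⟩
  have hv : IsDedekindDomain.HeightOneSpectrum.valuation K (maximalIdeal R) W.Δ = 1 := by
    rw [hW, map_Δ]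
    rw [IsDedekindDomain.HeightOneSpectrum.valuation_of_algebraMap]
    exact IsDedekindDomain.HeightOneSpectrum.intValuation_eq_one_iff.2 (fun hm =>
      (IsLocalRing.mem_maximalIdeal _).1 hm h)
  have hback : C⁻¹ • (W.minimal R) = W := by rw [hC, inv_smul_smul]
  have hmax := hmin.val_Δ_maximal.2 (j := C⁻¹) (by
    show WeierstrassCurve.IsIntegral R (C⁻¹ • W.minimal R)
    rw [hback]; exact hint)
  simp only [hback, one_smul] at hmax
  have haux : valuation_Δ_aux R W =
      (⟨1, le_rfl⟩ : { v : WithZero (Multiplicative ℤ) // v ≤ 1 }) := by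
    apply Subtype.ext
    rw [valuation_Δ_aux_eq_of_isIntegral, hv]
  have h1 : valuation_Δ_aux R W ≤ valuation_Δ_aux R (W.minimal R) := by
    apply hmax
    rw [haux]
    exact Subtype.mk_le_mk.2 (valuation_Δ_aux R (W.minimal R)).2
  refine ⟨?_⟩
  have h2 := Subtype.coe_le_coe.2 h1
  rw [valuation_Δ_aux_eq_of_isIntegral, valuation_Δ_aux_eq_of_isIntegral, hv] at h2
  refine le_antisymm ?_ h2
  rw [← valuation_Δ_aux_eq_of_isIntegral]
  exact (valuation_Δ_aux R (W.minimal R)).2

/-- elements of the fraction field which are roots of monic polynomials -/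
lemma lift_quartic {x : K} (a b c : R)
    (h : x ^ 4 + algebraMap R K a * x ^ 2 + algebraMap R K b * x + algebraMap R K c = 0) :
    ∃ y : R, algebraMap R K y = x := by
  apply IsIntegrallyClosed.isIntegral_iff.1
  refine ⟨Polynomial.X ^ 4 + Polynomial.C a * Polynomial.X ^ 2 + Polynomial.C b * Polynomial.X +
    Polynomial.C c, by monicity!, ?_⟩
  simp only [Polynomial.eval₂_add, Polynomial.eval₂_mul, Polynomial.eval₂_pow, Polynomial.eval₂_X,
    Polynomial.eval₂_C]
  exact h

lemma lift_quadratic {x : K} (a b : R)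
    (h : x ^ 2 + algebraMap R K a * x + algebraMap R K b = 0) :
    ∃ y : R, algebraMap R K y = x := by
  apply IsIntegrallyClosed.isIntegral_iff.1
  refine ⟨Polynomial.X ^ 2 + Polynomial.C a * Polynomial.X + Polynomial.C b, by monicity!, ?_⟩
  simp only [Polynomial.eval₂_add, Polynomial.eval₂_mul, Polynomial.eval₂_pow, Polynomial.eval₂_X,
    Polynomial.eval₂_C]
  exact h

/-- two integral models with unit discriminant differ by an integral change of variables -/
theorem integral_change (W₀ W₁ : WeierstrassCurve R) (h0 : IsUnit W₀.Δ) (h1 : IsUnit W₁.Δ)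
    (C : VariableChange K)
    (h : C • (W₀.map (algebraMap R K)) = W₁.map (algebraMap R K)) :
    ∃ C₀ : VariableChange R, C₀ • W₀ = W₁ := by
  have hinj : Function.Injective (algebraMap R K) := IsFractionRing.injective R K
  have hu : (C.u : K) ≠ 0 := C.u.ne_zero
  have hui : ((C.u⁻¹ : Kˣ) : K) = (C.u : K)⁻¹ := Units.val_inv_eq_inv_val _
  -- the unit
  have hΔ : (C.u : K)⁻¹ ^ 12 * algebraMap R K W₀.Δ = algebraMap R K W₁.Δ := by
    have := congrArg WeierstrassCurve.Δ h
    rw [variableChange_Δ, map_Δ, map_Δ, hui] at this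
    exact this
  obtain ⟨d0, hd0⟩ := h0
  obtain ⟨d1, hd1⟩ := h1
  have hu12 : (C.u : K) ^ 12 = algebraMap R K (d0 * d1⁻¹ : Rˣ) := by
    have e1 : algebraMap R K (d1 : R) ≠ 0 := by
      rw [Ne, map_eq_zero_iff _ hinj]
      exact d1.ne_zero
    have e2 : algebraMap R K ((d1⁻¹ : Rˣ) : R) * algebraMap R K (d1 : R) = 1 := by
      rw [← map_mul, Units.inv_mul, map_one]
    rw [← hd0, ← hd1] at hΔ
    rw [Units.val_mul, map_mul]
    have e3 : algebraMap R K (d0 : R) = (C.u : K) ^ 12 * algebraMap R K (d1 : R) := by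
      rw [← hΔ]
      field_simp
    rw [e3]
    linear_combination (-(C.u : K) ^ 12) * e2
  obtain ⟨u₀, hu₀⟩ : ∃ u₀ : R, algebraMap R K u₀ = C.u := by
    apply IsIntegrallyClosed.isIntegral_iff.1
    refine ⟨Polynomial.X ^ 12 - Polynomial.C ((d0 * d1⁻¹ : Rˣ) : R), by monicity!, ?_⟩
    simp only [Polynomial.eval₂_sub, Polynomial.eval₂_pow, Polynomial.eval₂_X,
      Polynomial.eval₂_C]
    rw [hu12, sub_self]
  have hu₀u : IsUnit u₀ := by
    have : u₀ ^ 12 = ((d0 * d1⁻¹ : Rˣ) : R) := by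
      apply hinj
      rw [map_pow, hu₀, hu12]
    exact (isUnit_pow_iff (by norm_num : (12 : ℕ) ≠ 0)).1 (this ▸ Units.isUnit _)
  obtain ⟨uu, huu⟩ := hu₀u
  -- the equations
  have mul_u : ∀ (n : ℕ) (x y : K), (C.u : K)⁻¹ ^ n * x = y → x = (C.u : K) ^ n * y := by
    intro n x y hxy
    rw [← hxy, inv_pow, ← mul_assoc, mul_inv_cancel₀ (pow_ne_zero n hu), one_mul]
  have ea1 := congrArg WeierstrassCurve.a₁ h
  have ea2 := congrArg WeierstrassCurve.a₂ h
  have ea6 := congrArg WeierstrassCurve.a₆ h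
  have eb6 := congrArg WeierstrassCurve.b₆ h
  have eb8 := congrArg WeierstrassCurve.b₈ h
  rw [variableChange_a₁, hui] at ea1
  rw [variableChange_a₂, hui] at ea2
  rw [variableChange_a₆, hui] at ea6
  rw [variableChange_b₆, hui] at eb6
  rw [variableChange_b₈, hui] at eb8
  have fb6 := mul_u 6 _ _ eb6
  have fb8 := mul_u 8 _ _ eb8
  have fa2 := mul_u 2 _ _ ea2
  have fa6 := mul_u 6 _ _ ea6
  rw [← hu₀] at fb6 fb8 fa2 fa6
  simp only [map_b₂, map_b₄, map_b₆, map_b₈, map_a₁, map_a₂, map_a₃, map_a₄, map_a₆]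
    at fb6 fb8 fa2 fa6
  obtain ⟨r₀, hr₀⟩ : ∃ r₀ : R, algebraMap R K r₀ = C.r := by
    apply lift_quartic R (-W₀.b₄) (-2 * W₀.b₆ - u₀ ^ 6 * W₁.b₆) (-(W₀.b₈ - u₀ ^ 8 * W₁.b₈))
    simp only [map_neg, map_sub, map_mul, map_pow, map_ofNat]
    linear_combination C.r * fb6 - fb8
  obtain ⟨s₀, hs₀⟩ : ∃ s₀ : R, algebraMap R K s₀ = C.s := by
    apply lift_quadratic R W₀.a₁ (-(W₀.a₂ + 3 * r₀ - u₀ ^ 2 * W₁.a₂))
    simp only [map_neg, map_sub, map_add, map_mul, map_pow, map_ofNat, hr₀]
    linear_combination -fa2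
  obtain ⟨t₀, ht₀⟩ : ∃ t₀ : R, algebraMap R K t₀ = C.t := by
    apply lift_quadratic R (W₀.a₃ + r₀ * W₀.a₁)
      (-(W₀.a₆ + r₀ * W₀.a₄ + r₀ ^ 2 * W₀.a₂ + r₀ ^ 3 - u₀ ^ 6 * W₁.a₆))
    simp only [map_neg, map_sub, map_add, map_mul, map_pow, hr₀]
    linear_combination -fa6
  refine ⟨⟨uu, r₀, s₀, t₀⟩, ?_⟩
  apply WeierstrassCurve.map_injective hinj
  show (VariableChange.mk uu r₀ s₀ t₀ • W₀).map (algebraMap R K) = W₁.map (algebraMap R K)
  rw [← WeierstrassCurve.map_variableChange, ← h]
  congr 1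
  ext
  · simp [VariableChange.map, huu, hu₀]
  · simp [VariableChange.map, hr₀]
  · simp [VariableChange.map, hs₀]
  · simp [VariableChange.map, ht₀]

end DVR

end P004N.H169.LF
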