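import Vale.Agent.P004N.H169.LF2

/-!
# The local polynomial of a Weierstrass curve
-/

open IsDiscreteValuationRing WeierstrassCurve

namespace P004N.H169.LF

section DVR

variable (R : Type*) [CommRing R] [IsDomain R] [IsDiscreteValuationRing R]
variable {K : Type*} [Field K] [Algebra R K] [IsFractionRing R K]

/-- the discriminant of the reduction of a good minimal model -/
lemma unit_of_good (W : WeierstrassCurve K) [IsMinimal R W] (h : W.HasGoodReduction R) :
    IsUnit (integralModel R W).Δ := by
  have h1 := h.goodReduction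
  rw [← integralModel_Δ_eq R W, IsDedekindDomain.HeightOneSpectrum.valuation_of_algebraMap,
    IsDedekindDomain.HeightOneSpectrum.intValuation_eq_one_iff] at h1
  by_contra h2
  exact h1 ((IsLocalRing.mem_maximalIdeal _).2 h2)

lemma reduction_Δ_ne (W : WeierstrassCurve K) [IsMinimal R W] (h : W.HasGoodReduction R) :
    (W.reduction R).Δ ≠ 0 := by
  unfold WeierstrassCurve.reduction
  rw [map_Δ]
  exact ((unit_of_good R W h).map _).ne_zero

open Polynomial in
/-- the shape of the local polynomial -/
theorem localPolynomial_cases [Finite (IsLocalRing.ResidueField R)] (W : WeierstrassCurve K) :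
    ∃ a : ℤ, (W.localPolynomial R = 1 - C a * X +
        C (Nat.card (IsLocalRing.ResidueField R) : ℤ) * X ^ 2 ∧
        |a| ≤ Nat.card (IsLocalRing.ResidueField R)) ∨
      (W.localPolynomial R = 1 - C a * X + C 0 * X ^ 2 ∧ |a| ≤ 1) := by
  classical
  unfold WeierstrassCurve.localPolynomial
  by_cases h1 : (W.minimal R).HasGoodReduction R
  · rw [if_pos h1]
    refine ⟨_, Or.inl ⟨rfl, ?_⟩⟩
    rw [card_point _ (reduction_Δ_ne R _ h1)]
    have h2 := cnt_le ((W.minimal R).reduction R)
    rw [abs_le]
    push_cast
    constructor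
    · have : (cnt ((W.minimal R).reduction R) : ℤ) ≤ 2 * Nat.card (IsLocalRing.ResidueField R) := by
        exact_mod_cast h2
      linarith
    · have : (0 : ℤ) ≤ cnt ((W.minimal R).reduction R) := Int.natCast_nonneg _
      linarith
  · rw [if_neg h1]
    by_cases h2 : (W.minimal R).HasSplitMultiplicativeReduction R
    · rw [if_pos h2]
      exact ⟨1, Or.inr ⟨by simp, by norm_num⟩⟩
    · rw [if_neg h2]
      by_cases h3 : (W.minimal R).HasMultiplicativeReduction R
      · rw [if_pos h3]
        exact ⟨-1, Or.inr ⟨by simp, by norm_num⟩⟩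
      · rw [if_neg h3]
        exact ⟨0, Or.inr ⟨by simp, by norm_num⟩⟩

open Polynomial in
/-- the local polynomial of a curve with an integral model of unit discriminant -/
theorem localPolynomial_good [Finite (IsLocalRing.ResidueField R)] (W₀ : WeierstrassCurve R)
    (h : IsUnit W₀.Δ) :
    (W₀.map (algebraMap R K)).localPolynomial R =
      1 - C ((Nat.card (IsLocalRing.ResidueField R) : ℤ) -
        cnt (W₀.map (IsLocalRing.residue R))) * X +
        C (Nat.card (IsLocalRing.ResidueField R) : ℤ) * X ^ 2 := by
  classical
  have h1 := good_of_unit R (K := K) W₀ h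
  unfold WeierstrassCurve.localPolynomial
  rw [if_pos h1, card_point _ (reduction_Δ_ne R _ h1)]
  obtain ⟨C, hC⟩ : ∃ C : VariableChange K,
      (W₀.map (algebraMap R K)).minimal R = C • (W₀.map (algebraMap R K)) := ⟨_, rfl⟩
  obtain ⟨C₀, hC₀⟩ := integral_change R (K := K) W₀
    (integralModel R ((W₀.map (algebraMap R K)).minimal R)) h (unit_of_good R _ h1) C (by
      rw [← hC]
      exact (baseChange_integralModel_eq R _).symm)
  have e : cnt (((W₀.map (algebraMap R K)).minimal R).reduction R) =
      cnt (W₀.map (IsLocalRing.residue R)) := by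
    unfold WeierstrassCurve.reduction
    rw [← hC₀, ← WeierstrassCurve.map_variableChange, cnt_change]
  rw [e]
  push_cast
  congr 3
  congr 1
  ring

end DVR

end P004N.H169.LF
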