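import Vale.Agent.P004N.H169.LF1
import Vale.Agent.P004N.H169.LF3

/-!
# The coefficients of Mathlib's `WeierstrassCurve.LFunction` over `ℚ`
-/

open IsDiscreteValuationRing WeierstrassCurve IsDedekindDomain NumberField ArithmeticFunction

namespace P004N.H169.LF

local instance (p : Nat.Primes) : Fact p.1.Prime := ⟨p.2⟩

/-- the prime number of a finite place of `ℚ` -/
noncomputable def pr (v : HeightOneSpectrum (𝓞 ℚ)) : Nat.Primes :=
  Rat.HeightOneSpectrum.primesEquiv v

/-- the residue field of the completion -/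
noncomputable def resEquiv (v : HeightOneSpectrum (𝓞 ℚ)) :
    IsLocalRing.ResidueField (v.adicCompletionIntegers ℚ) ≃+* ZMod (pr v : ℕ) :=
  (IsLocalRing.ResidueField.mapEquiv
    ((Rat.HeightOneSpectrum.adicCompletionIntegers.padicIntEquiv v).toRingEquiv)).trans
    PadicInt.residueField

instance finRes (v : HeightOneSpectrum (𝓞 ℚ)) :
    Finite (IsLocalRing.ResidueField (v.adicCompletionIntegers ℚ)) :=
  have : NeZero ((pr v : ℕ)) := ⟨(pr v).2.ne_zero⟩
  Finite.of_equiv _ (resEquiv v).symm.toEquiv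

lemma card_res (v : HeightOneSpectrum (𝓞 ℚ)) :
    Nat.card (IsLocalRing.ResidueField (v.adicCompletionIntegers ℚ)) = (pr v : ℕ) := by
  have : NeZero ((pr v : ℕ)) := ⟨(pr v).2.ne_zero⟩
  rw [Nat.card_congr (resEquiv v).toEquiv, Nat.card_eq_fintype_card, ZMod.card]

lemma cnt_map_equiv {F F' : Type*} [Field F] [Field F'] (e : F ≃+* F') (W : WeierstrassCurve F) :
    cnt (W.map (e : F →+* F')) = cnt W := by
  refine Nat.card_congr (Equiv.subtypeEquiv (Equiv.prodCongr e.toEquiv e.toEquiv).symm
    fun xy => ?_)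
  obtain ⟨x, y⟩ := xy
  obtain ⟨x', rfl⟩ := e.surjective x
  obtain ⟨y', rfl⟩ := e.surjective y
  have h1 : ((Equiv.prodCongr e.toEquiv e.toEquiv).symm (e x', e y')) = (x', y') := by
    simp
  rw [h1]
  exact Affine.map_equation (W := W.toAffine) (f := (e : F →+* F')) e.injective x' y'

/-- the local power series of the curve at `v` -/
noncomputable def lps (W : WeierstrassCurve ℚ) (v : HeightOneSpectrum (𝓞 ℚ)) : PowerSeries ℤ :=
  (W.baseChange (v.adicCompletion ℚ)).localPowerSeries (v.adicCompletionIntegers ℚ)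

lemma lps_const (W : WeierstrassCurve ℚ) (v : HeightOneSpectrum (𝓞 ℚ)) :
    (lps W v).constantCoeff = 1 := by
  unfold lps WeierstrassCurve.localPowerSeries
  rw [PowerSeries.constantCoeff_invOfUnit]
  simp

lemma LFunction_eq (W : WeierstrassCurve ℚ) :
    W.LFunction = eulerProduct fun v : HeightOneSpectrum (𝓞 ℚ) =>
      ofPowerSeries (pr v : ℕ) (lps W v) := by
  unfold WeierstrassCurve.LFunction
  congr 1
  funext v
  unfold WeierstrassCurve.localEulerFactor
  rw [card_res]
  rfl

lemma pr_inj : Function.Injective fun v : HeightOneSpectrum (𝓞 ℚ) => (pr v : ℕ) :=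
  fun _ _ h => Rat.HeightOneSpectrum.primesEquiv.injective (Subtype.ext h)

instance northcott_pr : Northcott fun v : HeightOneSpectrum (𝓞 ℚ) => (pr v : ℕ) where
  finite_le b := by
    refine Set.Finite.of_finite_image ((Set.finite_Iic b).subset ?_) (f := fun v => (pr v : ℕ))
      (pr_inj.injOn)
    rintro _ ⟨v, hv, rfl⟩
    exact hv

theorem LFunction_mult (W : WeierstrassCurve ℚ) : IsMultiplicative W.LFunction := by
  rw [LFunction_eq]
  apply isMultiplicative_eulerProduct
  intro v
  exact isMultiplicative_ofPowerSeries_of_isPrimePow _ (pr v).2.isPrimePow _ (lps_const W v)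

/-- the place of a prime -/
noncomputable def pl {p : ℕ} (hp : p.Prime) : HeightOneSpectrum (𝓞 ℚ) :=
  Rat.HeightOneSpectrum.primesEquiv.symm (Subtype.mk p hp : Nat.Primes)

lemma pr_pl {p : ℕ} (hp : p.Prime) : (pr (pl hp) : ℕ) = p :=
  congrArg Subtype.val
    (Rat.HeightOneSpectrum.primesEquiv.apply_symm_apply (Subtype.mk p hp : Nat.Primes))

theorem LFunction_pow (W : WeierstrassCurve ℚ) {p : ℕ} (hp : p.Prime) (k : ℕ) :
    W.LFunction (p ^ k) = (lps W (pl hp)).coeff k := by
  rw [LFunction_eq]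
  have := eulerProduct_pow (fun v : HeightOneSpectrum (𝓞 ℚ) => (pr v : ℕ)) (lps W)
    (lps_const W) (fun v => (pr v).2) pr_inj (pl hp) k
  rw [pr_pl] at this
  exact this

/-- **the local shape of the coefficients at every prime** -/
theorem LFunction_loc (W : WeierstrassCurve ℚ) {p : ℕ} (hp : p.Prime) :
    ((∀ k : ℕ, W.LFunction (p ^ (k + 2)) =
        W.LFunction p * W.LFunction (p ^ (k + 1)) - p * W.LFunction (p ^ k)) ∧
        |W.LFunction p| ≤ p) ∨
      ((∀ k : ℕ, W.LFunction (p ^ (k + 1)) = W.LFunction p * W.LFunction (p ^ k)) ∧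
        |W.LFunction p| ≤ 1) := by
  have key := LFunction_pow W hp
  have hq : Nat.card (IsLocalRing.ResidueField
      ((pl hp).adicCompletionIntegers ℚ)) = p := by
    rw [card_res, pr_pl]
  have e1 : W.LFunction p = (lps W (pl hp)).coeff 1 := by
    rw [← key 1, pow_one]
  have key' : ∀ k, W.LFunction (p ^ k) = (lps W (pl hp)).coeff k := key
  obtain ⟨a, h | h⟩ := localPolynomial_cases ((pl hp).adicCompletionIntegers ℚ)
    (W.baseChange ((pl hp).adicCompletion ℚ))
  · left
    obtain ⟨h0, h1⟩ := h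
    rw [hq] at h0 h1
    obtain ⟨c0, c1, c2⟩ := inv_coeff _ a p h0
    have e : (lps W (pl hp)).coeff 1 = a := c1
    refine ⟨fun k => ?_, by rw [e1, e]; exact h1⟩
    rw [key', key', key', e1, e]
    exact c2 k
  · right
    obtain ⟨h0, h1⟩ := h
    obtain ⟨c0, c1, c2⟩ := inv_coeff _ a 0 h0
    have e : (lps W (pl hp)).coeff 1 = a := c1
    refine ⟨fun k => ?_, by rw [e1, e]; exact h1⟩
    rw [key', key', e1, e]
    rcases k with _ | k
    · rw [zero_add]
      have e0 : (lps W (pl hp)).coeff 0 = 1 := c0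
      rw [e, e0, mul_one]
    · have := c2 k
      rw [zero_mul, sub_zero] at this
      exact this

/-- **the coefficient at a prime not dividing the discriminant of an integral model** -/
theorem LFunction_good (W : WeierstrassCurve ℤ) {p : ℕ} (hp : p.Prime) (h : ¬ (p : ℤ) ∣ W.Δ) :
    haveI : Fact p.Prime := ⟨hp⟩
    (W.map (Int.castRingHom ℚ)).LFunction p =
      p - cnt (W.map (Int.castRingHom (ZMod p))) ∧
    ∀ k : ℕ, (W.map (Int.castRingHom ℚ)).LFunction (p ^ (k + 2)) =
      (W.map (Int.castRingHom ℚ)).LFunction p * (W.map (Int.castRingHom ℚ)).LFunction (p ^ (k + 1)) -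
        p * (W.map (Int.castRingHom ℚ)).LFunction (p ^ k) := by
  have : Fact p.Prime := ⟨hp⟩
  set v := pl hp with hv
  have hprv : (pr v : ℕ) = p := by rw [hv, pr_pl]
  have hq : Nat.card (IsLocalRing.ResidueField (v.adicCompletionIntegers ℚ)) = p := by
    rw [card_res, hprv]
  have e1 : (W.map (Int.castRingHom ℚ)).LFunction p =
      (lps (W.map (Int.castRingHom ℚ)) v).coeff 1 := by
    have := LFunction_pow (W.map (Int.castRingHom ℚ)) hp 1
    rw [pow_one] at this
    exact this
  set W₀ : WeierstrassCurve (v.adicCompletionIntegers ℚ) :=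
    W.map (Int.castRingHom (v.adicCompletionIntegers ℚ)) with hW₀
  have hbase : (W.map (Int.castRingHom ℚ)).baseChange (v.adicCompletion ℚ) =
      W₀.map (algebraMap (v.adicCompletionIntegers ℚ) (v.adicCompletion ℚ)) := by
    rw [hW₀, WeierstrassCurve.baseChange, WeierstrassCurve.map_map, WeierstrassCurve.map_map]
    congr 1
    exact Subsingleton.elim _ _
  have hred : W₀.map (IsLocalRing.residue (v.adicCompletionIntegers ℚ)) =
      W.map (Int.castRingHom (IsLocalRing.ResidueField (v.adicCompletionIntegers ℚ))) := by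
    rw [hW₀, WeierstrassCurve.map_map]
    congr 1
  have hchar : ∀ n : ℤ, ((n : ℤ) : IsLocalRing.ResidueField (v.adicCompletionIntegers ℚ)) = 0 ↔
      (p : ℤ) ∣ n := by
    intro n
    rw [← map_eq_zero_iff (resEquiv v) (resEquiv v).injective, map_intCast,
      ZMod.intCast_zmod_eq_zero_iff_dvd, hprv]
  have hu : IsUnit W₀.Δ := by
    by_contra hcon
    have h1 : IsLocalRing.residue (v.adicCompletionIntegers ℚ) W₀.Δ = 0 :=
      (IsLocalRing.residue_eq_zero_iff _).2 ((IsLocalRing.mem_maximalIdeal _).2 hcon)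
    rw [hW₀, WeierstrassCurve.map_Δ] at h1
    have h2 : ((W.Δ : ℤ) : IsLocalRing.ResidueField (v.adicCompletionIntegers ℚ)) = 0 := by
      rw [← h1]
      rfl
    exact h ((hchar _).1 h2)
  have hgood := localPolynomial_good (v.adicCompletionIntegers ℚ) (K := v.adicCompletion ℚ) W₀ hu
  rw [← hbase] at hgood
  obtain ⟨-, c1, c2⟩ := inv_coeff _ _ _ hgood
  refine ⟨?_, fun k => ?_⟩
  swap
  · have key : ∀ k, (W.map (Int.castRingHom ℚ)).LFunction (p ^ k) =
        (lps (W.map (Int.castRingHom ℚ)) v).coeff k := LFunction_pow _ hp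
    rw [key, key, key, e1]
    refine Eq.trans (c2 k) ?_
    have c1' : (lps (W.map (Int.castRingHom ℚ)) v).coeff 1 = _ := c1
    rw [c1', hq]
    rfl
  rw [e1]
  refine Eq.trans c1 ?_
  rw [hq, hred]
  congr 2
  -- the residue field is `ZMod p`
  have e : cnt ((W.map (Int.castRingHom (IsLocalRing.ResidueField
      (v.adicCompletionIntegers ℚ)))).map ((resEquiv v : _ →+* ZMod (pr v : ℕ)))) =
      cnt (W.map (Int.castRingHom (IsLocalRing.ResidueField (v.adicCompletionIntegers ℚ)))) :=
    cnt_map_equiv (resEquiv v) _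
  rw [← e, WeierstrassCurve.map_map]
  have e2 : ((resEquiv v : _ →+* ZMod (pr v : ℕ))).comp
      (Int.castRingHom (IsLocalRing.ResidueField (v.adicCompletionIntegers ℚ))) =
      Int.castRingHom (ZMod (pr v : ℕ)) := Subsingleton.elim _ _
  rw [e2]
  have gen : ∀ (P : Nat.Primes) (hP : (P : ℕ) = p),
      cnt (W.map (Int.castRingHom (ZMod (P : ℕ)))) = cnt (W.map (Int.castRingHom (ZMod p))) := by
    rintro ⟨P, hP⟩ h3
    subst h3
    rfl
  exact gen (pr v) hprv

end P004N.H169.LF
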