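import Vale.Agent.P004N.H169.LF4

/-!
# Quadratic twists of `y² = x³ + A x + B` and the coefficients at good primes
-/

open WeierstrassCurve

namespace P004N.H169.LF

/-- `y² = x³ + A x + B` -/
def sw {R : Type*} [CommRing R] (A B : R) : WeierstrassCurve R := ⟨0, 0, 0, A, B⟩

lemma sw_map {R S : Type*} [CommRing R] [CommRing S] (f : R →+* S) (A B : R) :
    (sw A B).map f = sw (f A) (f B) := by
  ext <;> simp [sw]

lemma sw_Δ {R : Type*} [CommRing R] (A B : R) :
    (sw A B).Δ = -16 * (4 * A ^ 3 + 27 * B ^ 2) := by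
  simp only [WeierstrassCurve.Δ, WeierstrassCurve.b₂, WeierstrassCurve.b₄, WeierstrassCurve.b₆,
    WeierstrassCurve.b₈, sw]
  ring

lemma cnt_sw {F : Type*} [Field F] [Fintype F] [DecidableEq F] (h2 : ringChar F ≠ 2) (A B : F) :
    (cnt (sw A B) : ℤ) = Fintype.card F + ∑ x : F, quadraticChar F (x ^ 3 + A * x + B) := by
  have e1 : cnt (sw A B) = ∑ x : F, (Finset.univ.filter fun y : F =>
      y ^ 2 = x ^ 3 + A * x + B).card := by
    unfold cnt
    have hiff : ∀ xy : F × F, (sw A B).toAffine.Equation xy.1 xy.2 ↔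
        xy.2 ^ 2 = xy.1 ^ 3 + A * xy.1 + B := by
      intro xy
      rw [Affine.equation_iff]
      simp [sw]
    rw [Nat.card_congr (Equiv.subtypeEquivRight hiff), Nat.card_eq_fintype_card,
      Fintype.card_subtype, ← Finset.univ_product_univ]
    rw [Finset.card_filter, Finset.sum_product]
    refine Finset.sum_congr rfl fun x _ => ?_
    rw [Finset.card_filter]
  rw [e1]
  push_cast
  have e2 : ∀ x : F, ((Finset.univ.filter fun y : F => y ^ 2 = x ^ 3 + A * x + B).card : ℤ) =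
      quadraticChar F (x ^ 3 + A * x + B) + 1 := by
    intro x
    rw [← quadraticChar_card_sqrts h2]
    congr 2
    ext y
    simp
  rw [Finset.sum_congr rfl fun x _ => e2 x, Finset.sum_add_distrib, Finset.sum_const,
    Finset.card_univ, nsmul_eq_mul, mul_one, add_comm]

lemma cnt_twist {F : Type*} [Field F] [Fintype F] [DecidableEq F] (h2 : ringChar F ≠ 2)
    (A B D : F) (hD : D ≠ 0) :
    (Fintype.card F : ℤ) - cnt (sw (A * D ^ 2) (B * D ^ 3)) =
      quadraticChar F D * ((Fintype.card F : ℤ) - cnt (sw A B)) := by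
  rw [cnt_sw h2, cnt_sw h2]
  have e : ∑ x : F, quadraticChar F (x ^ 3 + A * D ^ 2 * x + B * D ^ 3) =
      quadraticChar F D * ∑ x : F, quadraticChar F (x ^ 3 + A * x + B) := by
    rw [Finset.mul_sum, ← Equiv.sum_comp (Equiv.mulLeft₀ D hD)
      (fun x : F => quadraticChar F (x ^ 3 + A * D ^ 2 * x + B * D ^ 3))]
    refine Finset.sum_congr rfl fun x _ => ?_
    rw [Equiv.mulLeft₀_apply]
    have h3 : (D * x) ^ 3 + A * D ^ 2 * (D * x) + B * D ^ 3 = D ^ 3 * (x ^ 3 + A * x + B) := by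
      ring
    rw [h3, map_mul, map_pow]
    have h4 : quadraticChar F D ^ 2 = 1 := by
      have := quadraticChar_sq_one' (F := F) hD
      rw [← map_pow]
      exact this
    rw [pow_succ, h4, one_mul]
  rw [e]
  ring

/-- **coefficients of twists** -/
theorem LFunction_twist (A B D : ℤ) {p : ℕ} (hp : p.Prime)
    (h : ¬ (p : ℤ) ∣ (sw A B).Δ) (hD : ¬ (p : ℤ) ∣ D) :
    haveI : Fact p.Prime := ⟨hp⟩
    (sw (A * D ^ 2 : ℚ) (B * D ^ 3 : ℚ)).LFunction p =
      legendreSym p D * (sw (A : ℚ) (B : ℚ)).LFunction p := by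
  have : Fact p.Prime := ⟨hp⟩
  have hp' : Prime (p : ℤ) := Nat.prime_iff_prime_int.1 hp
  have hΔ' : ¬ (p : ℤ) ∣ (sw (A * D ^ 2) (B * D ^ 3)).Δ := by
    have e : (sw (A * D ^ 2) (B * D ^ 3)).Δ = D ^ 6 * (sw A B).Δ := by
      rw [sw_Δ, sw_Δ]; ring
    rw [e]
    intro h1
    rcases hp'.dvd_or_dvd h1 with h2 | h2
    · exact hD (hp'.dvd_of_dvd_pow h2)
    · exact h h2
  have g1 := (LFunction_good (sw A B) hp h).1
  have g2 := (LFunction_good (sw (A * D ^ 2) (B * D ^ 3)) hp hΔ').1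
  rw [sw_map, sw_map] at g1 g2
  simp only [map_mul, map_pow, eq_intCast] at g1 g2
  rw [g1, g2]
  have hp2 : p ≠ 2 := by
    rintro rfl
    apply h
    rw [sw_Δ]
    exact Dvd.dvd.mul_right (by norm_num) _
  have hrc : ringChar (ZMod p) ≠ 2 := by
    rw [ZMod.ringChar_zmod_n]; exact hp2
  have hDne : ((D : ℤ) : ZMod p) ≠ 0 := by
    rw [Ne, ZMod.intCast_zmod_eq_zero_iff_dvd]; exact hD
  have := cnt_twist hrc (A : ZMod p) (B : ZMod p) (D : ZMod p) hDne
  rw [ZMod.card] at this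
  exact this

end P004N.H169.LF
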